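import Mathlib
import Crest.Prelude.Def_ModularData

/-! Basic facts on the functional calculus `LineCalculus`. -/

set_option autoImplicit false

namespace Crest.Agent.H0112

open Crest.OpAlg Filter MeasureTheory Topology
open scoped BoundedContinuousFunction InnerProductSpace

variable {H : Type*} [NormedAddCommGroup H] [InnerProductSpace ℂ H] [CompleteSpace H]
variable (D : LineCalculus H)

theorem norm_apply_le (f : ℝ →ᵇ ℂ) : ‖D.apply f‖ ≤ ‖f‖ :=
  NonUnitalStarAlgHom.norm_apply_le D.apply f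

theorem norm_apply_apply_le (f : ℝ →ᵇ ℂ) (x : H) : ‖D.apply f x‖ ≤ ‖f‖ * ‖x‖ :=
  ((D.apply f).le_opNorm x).trans (mul_le_mul_of_nonneg_right (norm_apply_le D f) (norm_nonneg _))

theorem apply_mul (f g : ℝ →ᵇ ℂ) (x : H) : D.apply (f * g) x = D.apply f (D.apply g x) := by
  rw [map_mul]; rfl

@[simp] theorem character_apply (t u : ℝ) :
    LineCalculus.character t u = Complex.exp (Complex.I * ((t * u : ℝ) : ℂ)) := rfl

theorem wave_add (s t : ℝ) : D.wave (s + t) = D.wave s * D.wave t := by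
  unfold LineCalculus.wave
  rw [← map_mul]
  congr 1
  ext u
  simp only [character_apply, BoundedContinuousFunction.mul_apply, ← Complex.exp_add]
  congr 1; push_cast; ring

theorem wave_zero : D.wave 0 = 1 := by
  unfold LineCalculus.wave
  rw [← map_one D.apply]
  congr 1
  ext u
  simp

theorem star_wave (t : ℝ) : star (D.wave t) = D.wave (-t) := by
  unfold LineCalculus.wave
  rw [← map_star]
  congr 1
  ext u
  simp only [character_apply, BoundedContinuousFunction.star_apply, RCLike.star_def,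
    ← Complex.exp_conj, map_mul, Complex.conj_I, Complex.conj_ofReal]
  congr 1; push_cast; ring

theorem wave_wave (s t : ℝ) (x : H) : D.wave s (D.wave t x) = D.wave (s + t) x := by
  rw [wave_add]; rfl

theorem inner_wave (t : ℝ) (x y : H) : ⟪D.wave t x, y⟫_ℂ = ⟪x, D.wave (-t) y⟫_ℂ := by
  rw [← star_wave, ContinuousLinearMap.star_eq_adjoint, ContinuousLinearMap.adjoint_inner_right]

theorem norm_wave (t : ℝ) (x : H) : ‖D.wave t x‖ = ‖x‖ := by
  have h : ⟪D.wave t x, D.wave t x⟫_ℂ = ⟪x, x⟫_ℂ := by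
    rw [inner_wave, wave_wave, neg_add_cancel, wave_zero]; rfl
  rw [inner_self_eq_norm_sq_to_K, inner_self_eq_norm_sq_to_K] at h
  have h2 : ‖D.wave t x‖ ^ 2 = ‖x‖ ^ 2 := by exact_mod_cast h
  exact (sq_eq_sq₀ (norm_nonneg _) (norm_nonneg _)).1 h2

theorem apply_comm (f g : ℝ →ᵇ ℂ) (x : H) :
    D.apply f (D.apply g x) = D.apply g (D.apply f x) := by
  rw [← apply_mul, ← apply_mul, mul_comm]

theorem continuous_character_mul {g : ℝ →ᵇ ℂ} (hg : HasCompactSupport (g : ℝ → ℂ)) :
    Continuous fun t => LineCalculus.character t * g := by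
  obtain ⟨R, hR0, hR⟩ := hg.isCompact.isBounded.subset_closedBall_lt 0 (0 : ℝ)
  refine (LipschitzWith.of_dist_le_mul (K := ⟨R * ‖g‖, by positivity⟩) fun s t => ?_).continuous
  rw [dist_eq_norm]
  refine (BoundedContinuousFunction.norm_le (by positivity)).2 fun u => ?_
  simp only [BoundedContinuousFunction.coe_sub, Pi.sub_apply, BoundedContinuousFunction.mul_apply,
    character_apply]
  change _ ≤ (R * ‖g‖) * dist s t
  by_cases hu : u ∈ tsupport (g : ℝ → ℂ)
  · have h1 : |u| ≤ R := by simpa using hR hu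
    have h2 : Complex.exp (Complex.I * ((s * u : ℝ) : ℂ)) - Complex.exp (Complex.I * ((t * u : ℝ) : ℂ))
        = Complex.exp (Complex.I * ((t * u : ℝ) : ℂ)) *
          (Complex.exp (Complex.I * (((s - t) * u : ℝ) : ℂ)) - 1) := by
      rw [mul_sub, ← Complex.exp_add, mul_one]; congr 2; push_cast; ring
    rw [← sub_mul, h2, norm_mul, norm_mul, Complex.norm_exp_I_mul_ofReal, one_mul]
    have h3 := Real.norm_exp_I_mul_ofReal_sub_one_le (x := (s - t) * u)
    rw [Real.norm_eq_abs, abs_mul] at h3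
    rw [Real.dist_eq]
    calc _ ≤ (|s - t| * R) * ‖g‖ := mul_le_mul (h3.trans (by gcongr)) (g.norm_coe_le_norm u)
          (norm_nonneg _) (by positivity)
      _ = _ := by ring
  · rw [image_eq_zero_of_notMem_tsupport hu]; simp; positivity

/-- the calculus evaluated at a vector, as a continuous linear map -/
noncomputable def evalAt (x : H) : (ℝ →ᵇ ℂ) →L[ℂ] H :=
  LinearMap.mkContinuous
    { toFun := fun f => D.apply f x
      map_add' := fun f g => by simp
      map_smul' := fun c f => by simp } ‖x‖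
    fun f => by rw [mul_comm]; exact norm_apply_apply_le D f x

@[simp] theorem evalAt_apply (x : H) (f : ℝ →ᵇ ℂ) : evalAt D x f = D.apply f x := rfl

theorem continuous_wave (x : H) : Continuous fun t => D.wave t x := by
  refine continuous_of_uniform_approx_of_continuous fun u hu => ?_
  obtain ⟨ε, hε, h⟩ := Metric.mem_uniformity_dist.1 hu
  obtain ⟨g, hg, hx⟩ := D.window x ε hε
  refine ⟨fun t => evalAt D x (LineCalculus.character t * g),
    (evalAt D x).continuous.comp (continuous_character_mul hg), fun t => h ?_⟩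
  beta_reduce
  rw [evalAt_apply, apply_mul, dist_comm, dist_eq_norm]
  change ‖D.wave t _ - D.wave t x‖ < ε
  rwa [← map_sub, norm_wave]

theorem integrable_wave {k : ℝ → ℂ} (hk : Integrable k) {τ : ℝ → ℝ} (hτ : Continuous τ) (x : H) :
    Integrable fun v => k v • D.wave (τ v) x := by
  refine (hk.norm.mul_const ‖x‖).mono' (hk.1.smul ((continuous_wave D x).comp hτ).aestronglyMeasurable)
    (ae_of_all _ fun v => ?_)
  rw [norm_smul, norm_wave]

theorem norm_integral_wave {k : ℝ → ℂ} (τ : ℝ → ℝ) (x : H) :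
    ‖∫ v, k v • D.wave (τ v) x‖ ≤ (∫ v, ‖k v‖) * ‖x‖ := by
  refine (norm_integral_le_integral_norm _).trans ?_
  simp_rw [norm_smul, norm_wave]
  rw [integral_mul_const]

theorem integral_wave {k : ℝ → ℂ} (hk : Integrable k) {τ : ℝ → ℝ} (hτ : Continuous τ)
    (ψ : ℝ →ᵇ ℂ) (hψ : ∀ u, ψ u = ∫ v, k v * Complex.exp (Complex.I * ((τ v * u : ℝ) : ℂ))) (x : H) :
    ∫ v, k v • D.wave (τ v) x = D.apply ψ x := by
  have key : ∀ g : ℝ →ᵇ ℂ, HasCompactSupport (g : ℝ → ℂ) →
      ∫ v, k v • D.wave (τ v) (D.apply g x) = D.apply ψ (D.apply g x) := by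
    intro g hg
    have hi : Integrable fun v => k v • (LineCalculus.character (τ v) * g) := by
      refine (hk.norm.mul_const ‖g‖).mono'
        (hk.1.smul ((continuous_character_mul hg).comp hτ).aestronglyMeasurable)
        (ae_of_all _ fun v => ?_)
      rw [norm_smul]
      refine mul_le_mul_of_nonneg_left ((BoundedContinuousFunction.norm_le (norm_nonneg _)).2
        fun u => ?_) (norm_nonneg _)
      rw [BoundedContinuousFunction.mul_apply, norm_mul, character_apply,
        Complex.norm_exp_I_mul_ofReal, one_mul]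
      exact g.norm_coe_le_norm u
    have h1 : ∫ v, k v • (LineCalculus.character (τ v) * g) = ψ * g := by
      ext u
      have := (BoundedContinuousFunction.evalCLM ℂ u).integral_comp_comm hi
      simp only [BoundedContinuousFunction.evalCLM_apply] at this
      rw [← this, BoundedContinuousFunction.mul_apply, hψ, ← integral_mul_const]
      simp [mul_assoc]
    have h2 := (evalAt D x).integral_comp_comm hi
    rw [h1, evalAt_apply, apply_mul] at h2
    rw [← h2]
    simp only [map_smul, evalAt_apply, apply_mul]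
    rfl
  refine eq_of_forall_dist_le fun ε hε => ?_
  set C := (∫ v, ‖k v‖) + ‖ψ‖ + 1 with hC
  have hI : 0 ≤ ∫ v, ‖k v‖ := integral_nonneg fun _ => norm_nonneg _
  have hC0 : 0 < C := by positivity
  obtain ⟨g, hg, hx⟩ := D.window x (ε / C) (by positivity)
  have h1 : ∫ v, k v • D.wave (τ v) x = (∫ v, k v • D.wave (τ v) (D.apply g x))
      - ∫ v, k v • D.wave (τ v) (D.apply g x - x) := by
    rw [← integral_sub (integrable_wave D hk hτ _) (integrable_wave D hk hτ _)]
    simp [smul_sub]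
  rw [h1, key g hg, dist_eq_norm, sub_right_comm, ← map_sub]
  have h2 := norm_integral_wave D (k := k) τ (D.apply g x - x)
  have h3 := norm_apply_apply_le D ψ (D.apply g x - x)
  have h4 : C * ‖D.apply g x - x‖ ≤ ε := by
    rw [lt_div_iff₀ hC0] at hx; linarith
  refine (norm_sub_le _ _).trans ?_
  have := norm_nonneg (D.apply g x - x)
  nlinarith

/-- a bump which is the Fourier transform of an integrable function -/
theorem exists_bump : ∃ L : ℝ, 0 < L ∧ ∀ s δ : ℝ, 0 < δ →
    ∃ (k : ℝ → ℂ) (τ : ℝ → ℝ) (ψ : ℝ →ᵇ ℂ), Integrable k ∧ Continuous τ ∧ ∫ v, ‖k v‖ ≤ L ∧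
      (∀ u, ψ u = ∫ v, k v * Complex.exp (Complex.I * ((τ v * u : ℝ) : ℂ))) ∧ ‖ψ‖ ≤ 1 ∧
      (∀ u ∈ Set.Icc (s - δ) (s + δ), ψ u = 1) ∧
      ∀ u ∉ Set.Icc (s - 4 * δ) (s + 4 * δ), ψ u = 0 := by
  let b : ContDiffBump (0 : ℝ) := ⟨1, 4, one_pos, by norm_num⟩
  have h1 : HasCompactSupport fun u : ℝ => ((b u : ℝ) : ℂ) :=
    b.hasCompactSupport.comp_left (g := fun r : ℝ => (r : ℂ)) (by simp)
  let φ : SchwartzMap ℝ ℂ := h1.toSchwartzMap (Complex.ofRealCLM.contDiff.comp b.contDiff)
  let g : SchwartzMap ℝ ℂ := FourierTransformInv.fourierInv φ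
  have hg : ∀ y, ((b y : ℝ) : ℂ) = ∫ v : ℝ, Complex.exp (↑(-2 * Real.pi * v * y) * Complex.I) • g v := by
    intro y
    rw [← Real.fourier_real_eq_integral_exp_smul, ← SchwartzMap.fourier_coe]
    simp only [g, FourierTransform.fourier_fourierInv_eq]
    rfl
  refine ⟨(∫ v, ‖g v‖) + 1, by have : 0 ≤ ∫ v, ‖g v‖ := integral_nonneg fun _ => norm_nonneg _; linarith,
    fun s δ hδ => ?_⟩
  refine ⟨fun v => Complex.exp (Complex.I * ((2 * Real.pi * v * s / δ : ℝ) : ℂ)) * g v,
    fun v => -2 * Real.pi * v / δ,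
    BoundedContinuousFunction.ofNormedAddCommGroup (fun u => ((b ((u - s) / δ) : ℝ) : ℂ))
      (Complex.continuous_ofReal.comp (b.continuous.comp (by fun_prop))) 1 fun u => ?_,
    ?_, by fun_prop, ?_, fun u => ?_, ?_, fun u hu => ?_, fun u hu => ?_⟩
  · rw [Complex.norm_real, Real.norm_of_nonneg b.nonneg]; exact b.le_one
  · refine g.integrable.norm.mono' (Continuous.aestronglyMeasurable (by fun_prop))
      (ae_of_all _ fun v => ?_)
    rw [norm_mul, Complex.norm_exp_I_mul_ofReal, one_mul]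
  · simp_rw [norm_mul, Complex.norm_exp_I_mul_ofReal, one_mul]; linarith
  · rw [BoundedContinuousFunction.coe_ofNormedAddCommGroup]
    beta_reduce
    rw [hg]
    congr 1
    ext v
    rw [smul_eq_mul, mul_right_comm _ (g v), ← Complex.exp_add]
    congr 2
    have : (δ : ℂ) ≠ 0 := by exact_mod_cast hδ.ne'
    push_cast; field_simp; ring
  · exact BoundedContinuousFunction.norm_ofNormedAddCommGroup_le _ zero_le_one _
  · rw [BoundedContinuousFunction.coe_ofNormedAddCommGroup]
    beta_reduce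
    rw [b.one_of_mem_closedBall, Complex.ofReal_one]
    rw [mem_closedBall_zero_iff, Real.norm_eq_abs, abs_div, abs_of_pos hδ, div_le_iff₀ hδ, abs_le]
    change -(1 * δ) ≤ _ ∧ _ ≤ 1 * δ
    constructor <;> linarith [hu.1, hu.2]
  · rw [BoundedContinuousFunction.coe_ofNormedAddCommGroup]
    beta_reduce
    rw [b.zero_of_le_dist, Complex.ofReal_zero]
    rw [dist_zero_right, Real.norm_eq_abs, abs_div, abs_of_pos hδ, le_div_iff₀ hδ]
    change 4 * δ ≤ _
    rw [Set.mem_Icc, not_and_or, not_le, not_le] at hu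
    rcases hu with hu | hu
    · rw [abs_of_neg (by linarith)]; linarith
    · rw [abs_of_pos (by linarith)]; linarith

theorem exists_sInt (μ : Measure ℝ) (F : ℝ → H →L[ℂ] H) (C : ℝ) (hC0 : 0 ≤ C)
    (hF : ∀ x, Integrable (fun v => F v x) μ) (hC : ∀ x, ‖∫ v, F v x ∂μ‖ ≤ C * ‖x‖)
    (M : VonNeumannAlgebra H) (hM : ∀ v, F v ∈ M) :
    ∃ G : H →L[ℂ] H, G ∈ M ∧ ‖G‖ ≤ C ∧ ∀ x, G x = ∫ v, F v x ∂μ := by
  let G : H →L[ℂ] H := LinearMap.mkContinuous
    { toFun := fun x => ∫ v, F v x ∂μ
      map_add' := fun x y => by simp only [map_add]; exact integral_add (hF x) (hF y)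
      map_smul' := fun c x => by simp only [map_smul, RingHom.id_apply]; exact integral_smul c _ }
    C hC
  have hG : ∀ x, G x = ∫ v, F v x ∂μ := fun _ => rfl
  refine ⟨G, ?_, LinearMap.mkContinuous_norm_le _ hC0 _, hG⟩
  rw [← M.commutant_commutant, VonNeumannAlgebra.mem_commutant_iff]
  intro z hz
  ext x
  rw [mul_apply_eq_comp, mul_apply_eq_comp, hG, hG,
    ← z.integral_comp_comm (hF x)]
  congr 1
  ext v
  exact (congrArg (fun A : H →L[ℂ] H => A x)
    (VonNeumannAlgebra.mem_commutant_iff.1 hz _ (hM v))).symm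

end Crest.Agent.H0112
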