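import Crest.Agent.H0112.Mod

/-! The greedy choice of signs and times, truncation and smoothing. -/

set_option autoImplicit false

namespace Crest.Agent.H0112

open Crest.OpAlg Filter MeasureTheory Topology
open scoped BoundedContinuousFunction InnerProductSpace

variable {H : Type*} [NormedAddCommGroup H] [InnerProductSpace ℂ H] [CompleteSpace H]

theorem inner_star_mul (a : H →L[ℂ] H) (x : H) : ⟪(star a * a) x, x⟫_ℂ = ((‖a x‖ ^ 2 : ℝ) : ℂ) := by
  rw [mul_apply_eq_comp, ContinuousLinearMap.star_eq_adjoint, ContinuousLinearMap.adjoint_inner_left,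
    inner_self_eq_norm_sq_to_K]
  simp

omit [CompleteSpace H] in
theorem par (x y : H) : ‖x + y‖ ^ 2 + ‖x - y‖ ^ 2 = 2 * ‖x‖ ^ 2 + 2 * ‖y‖ ^ 2 := by
  rw [@norm_add_sq ℂ, @norm_sub_sq ℂ]; ring

/-- the potential -/
noncomputable def pot (T : H →L[ℂ] H) (ξ : H) (l m : ℝ) (v : H →L[ℂ] H) : ℝ :=
  ‖T (v ξ)‖ ^ 2 - l * ‖(star v * v) ξ‖ ^ 2 - m * (‖v ξ‖ ^ 2 + ‖star v ξ‖ ^ 2)

theorem sign_step (T : H →L[ℂ] H) (ξ : H) {l : ℝ} (hl : 0 ≤ l) (m : ℝ) (v b : H →L[ℂ] H) :
    2 * (pot T ξ l m v + pot T ξ l m b - l * (2 * (⟪(star b * b) ξ, (star v * v) ξ⟫_ℂ).re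
      + 2 * ‖star v (b ξ)‖ ^ 2 + 2 * ‖star b (v ξ)‖ ^ 2)) ≤
      pot T ξ l m (v + b) + pot T ξ l m (v - b) := by
  have e1 : (star (v + b) * (v + b)) ξ = ((star b * b) ξ + (star v * v) ξ)
      + (star v (b ξ) + star b (v ξ)) := by
    simp only [star_add, mul_apply_eq_comp, add_apply, map_add]; abel
  have e2 : (star (v - b) * (v - b)) ξ = ((star b * b) ξ + (star v * v) ξ)
      - (star v (b ξ) + star b (v ξ)) := by
    simp only [star_sub, mul_apply_eq_comp, sub_apply, map_sub]; abel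
  have h1 := par ((star b * b) ξ + (star v * v) ξ) (star v (b ξ) + star b (v ξ))
  have h2 := par (star v (b ξ)) (star b (v ξ))
  have h3 := par (T (v ξ)) (T (b ξ))
  have h4 := par (v ξ) (b ξ)
  have h5 := par (star v ξ) (star b ξ)
  have h6 := @norm_add_sq ℂ _ _ _ _ ((star b * b) ξ) ((star v * v) ξ)
  rw [RCLike.re_to_complex] at h6
  have h7 := mul_nonneg hl (sq_nonneg ‖star v (b ξ) - star b (v ξ)‖)
  unfold pot
  rw [e1, e2]
  simp only [star_add, star_sub, add_apply, sub_apply, map_add, map_sub]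
  rw [h6, eq_sub_of_add_eq h2] at h1
  have h8 := congrArg (l * ·) h1
  have h9 := congrArg (m * ·) h4
  have h10 := congrArg (m * ·) h5
  beta_reduce at h8 h9 h10
  linarith

theorem avg_add {f g : ℝ → ℝ} (hf : Continuous f) (hg : Continuous g) (k : ℕ) :
    avg (fun t => f t + g t) k = avg f k + avg g k := by
  rw [avg, intervalIntegral.integral_add (hf.intervalIntegrable _ _) (hg.intervalIntegrable _ _),
    smul_add]; rfl

theorem avg_mul (c : ℝ) (f : ℝ → ℝ) (k : ℕ) : avg (fun t => c * f t) k = c * avg f k := by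
  simp only [avg, intervalIntegral.integral_const_mul, smul_eq_mul]; ring

theorem exists_avg_le {f : ℝ → ℝ} (hf : Continuous f) {k : ℕ} (hk : 0 < k) : ∃ t, avg f k ≤ f t := by
  have hk' : (0 : ℝ) < k := by exact_mod_cast hk
  obtain ⟨t, -, h⟩ := exists_setAverage_le (μ := volume) (s := Set.Icc (-(k : ℝ)) k) (f := f)
    (by simp; omega) (by simp) hf.integrableOn_Icc
  exact ⟨t, (windowMean_eq f k).symm.trans_le h⟩

theorem avg_mono {f g : ℝ → ℝ} (hf : Continuous f) (hg : Continuous g) (h : ∀ t, f t ≤ g t) (k : ℕ) :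
    avg f k ≤ avg g k :=
  mul_le_mul_of_nonneg_left (intervalIntegral.integral_mono (by linarith [Nat.cast_nonneg (α := ℝ) k])
    (hf.intervalIntegrable _ _) (hg.intervalIntegrable _ _) h) (by positivity)

theorem avg_const (c : ℝ) {k : ℕ} (hk : 0 < k) : avg (fun _ => c) k = c := by
  have hk' : (k : ℝ) ≠ 0 := by exact_mod_cast hk.ne'
  simp only [avg, intervalIntegral.integral_const, smul_eq_mul]
  field_simp; ring

variable (S : ModularDatum H) (herg : S.Ergodic) (ω : Ultrafilter ℕ) (hω : (ω : Filter ℕ) ≤ atTop)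
include herg hω

theorem erg_re {b : H →L[ℂ] H} (hb : b ∈ S.M) (x y : H) :
    Tendsto (avg fun t => (⟪S.flow t (star b * b) x, y⟫_ℂ).re) ω
      (𝓝 (‖b S.vac‖ ^ 2 * (⟪x, y⟫_ℂ).re)) := by
  have h := (Complex.continuous_re.tendsto _).comp
    (ergodic_mean S herg ω hω (mul_mem (star_mem hb) hb) x y)
  rw [inner_star_mul, Complex.re_ofReal_mul] at h
  exact h.congr fun k =>
    (avg_clm Complex.reCLM ((continuous_flow S _ x).inner continuous_const) k).symm

theorem time_step (T : H →L[ℂ] H) {a : H →L[ℂ] H} (ha : a ∈ S.M) {A c : ℝ}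
    (h1 : ‖a S.vac‖ ^ 2 ≤ A) (h2 : ‖star a S.vac‖ ^ 2 ≤ A)
    (hc : ∀ᶠ k in ω, c ≤ avg (fun t => ‖T (S.D.wave t (a S.vac))‖ ^ 2) k)
    {l m ε : ℝ} (hl : 0 ≤ l) (hm : 0 ≤ m) (hε : 0 < ε) {v : H →L[ℂ] H} (hv : v ∈ S.M) :
    ∃ v' ∈ S.M, pot T S.vac l (m + 4 * A * l) v + c - l * ‖(star a * a) S.vac‖ ^ 2 - 2 * A * m - ε
      ≤ pot T S.vac l m v' := by
  have t1 := erg_re S herg ω hω ha S.vac ((star v * v) S.vac)
  have t2 := erg_re S herg ω hω (star_mem hv) (a S.vac) (a S.vac)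
  have t3 := erg_re S herg ω hω (star_mem ha) (v S.vac) (v S.vac)
  rw [← inner_conj_symm, inner_star_mul, Complex.conj_ofReal, Complex.ofReal_re] at t1
  rw [inner_self_eq_norm_sq_to_K, star_star] at t2 t3
  replace t2 := t2.congr fun k => (avg_neg _ k).symm
  have c0 : Continuous fun t => ‖T (S.D.wave t (a S.vac))‖ ^ 2 :=
    (T.continuous.comp (continuous_wave S.D _)).norm.pow 2
  have c1 : Continuous fun t => (⟪S.flow t (star a * a) S.vac, (star v * v) S.vac⟫_ℂ).re :=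
    Complex.continuous_re.comp ((continuous_flow S _ _).inner continuous_const)
  have c2 : Continuous fun t => (⟪S.flow (-t) (v * star v) (a S.vac), a S.vac⟫_ℂ).re :=
    Complex.continuous_re.comp (((continuous_flow S _ _).comp continuous_neg).inner continuous_const)
  have c3 : Continuous fun t => (⟪S.flow t (a * star a) (v S.vac), v S.vac⟫_ℂ).re :=
    Complex.continuous_re.comp ((continuous_flow S _ _).inner continuous_const)
  have t4 := (((t1.add t2).add t3).const_mul (-2 * l)).eventually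
    (lt_mem_nhds (sub_lt_self _ hε))
  obtain ⟨k, hk1, hk2, hk3⟩ := (hc.and (t4.and (hω (eventually_gt_atTop 0)))).exists
  rw [← avg_add c1 c2, ← avg_add (c1.fun_add c2) c3, ← avg_mul] at hk2
  obtain ⟨t, ht⟩ := exists_avg_le
    (c0.fun_add (((c1.fun_add c2).fun_add c3).const_mul (-2 * l))) hk3
  rw [avg_add c0 (((c1.fun_add c2).fun_add c3).const_mul (-2 * l))] at ht
  have hb := S.flow_mem t a ha
  change S.flow t a ∈ S.M at hb
  have s := sign_step T S.vac hl m v (S.flow t a)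
  have e1 : ‖star v (S.flow t a S.vac)‖ ^ 2 =
      (⟪S.flow (-t) (v * star v) (a S.vac), a S.vac⟫_ℂ).re := by
    rw [flow_apply S (-t), inner_wave, neg_neg, flow_vac]
    have := inner_star_mul (star v) (S.D.wave t (a S.vac))
    rw [star_star] at this
    rw [this, Complex.ofReal_re]
  have e2 : ‖star (S.flow t a) (v S.vac)‖ ^ 2 =
      (⟪S.flow t (a * star a) (v S.vac), v S.vac⟫_ℂ).re := by
    have := inner_star_mul (star (S.flow t a)) (v S.vac)
    rw [star_star, star_flow] at this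
    rw [flow_mul, this, Complex.ofReal_re, star_flow]
  have e3 : pot T S.vac l m (S.flow t a) = ‖T (S.D.wave t (a S.vac))‖ ^ 2
      - l * ‖(star a * a) S.vac‖ ^ 2 - m * (‖a S.vac‖ ^ 2 + ‖star a S.vac‖ ^ 2) := by
    rw [pot, star_flow, ← flow_mul, flow_vac, flow_vac, flow_vac, norm_wave, norm_wave, norm_wave]
  rw [e1, e2, e3, star_flow, ← flow_mul] at s
  have key : pot T S.vac l (m + 4 * A * l) v + c - l * ‖(star a * a) S.vac‖ ^ 2 - 2 * A * m - ε ≤
      (pot T S.vac l m (v + S.flow t a) + pot T S.vac l m (v - S.flow t a)) / 2 := by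
    have e4 : pot T S.vac l (m + 4 * A * l) v = pot T S.vac l m v
        - 4 * A * l * (‖v S.vac‖ ^ 2 + ‖star v S.vac‖ ^ 2) := by unfold pot; ring
    have e5 : ∀ x : H, (((‖x‖ : ℝ) : ℂ) ^ 2).re = ‖x‖ ^ 2 := fun x => by
      rw [← Complex.ofReal_pow, Complex.ofReal_re]
    simp only [Complex.coe_algebraMap, e5] at hk2
    have p1 := mul_le_mul_of_nonneg_right h1 (mul_nonneg hl (sq_nonneg ‖v S.vac‖))
    have p2 := mul_le_mul_of_nonneg_right h2 (mul_nonneg hl (sq_nonneg ‖v S.vac‖))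
    have p3 := mul_le_mul_of_nonneg_right h1 (mul_nonneg hl (sq_nonneg ‖star v S.vac‖))
    have p4 := mul_nonneg ((sq_nonneg _).trans h1) (mul_nonneg hl (sq_nonneg ‖star v S.vac‖))
    have p5 := mul_le_mul_of_nonneg_left h1 hm
    have p6 := mul_le_mul_of_nonneg_left h2 hm
    rw [e4]
    nlinarith
  by_cases h : pot T S.vac l m (v + S.flow t a) ≤ pot T S.vac l m (v - S.flow t a)
  · exact ⟨_, sub_mem hv hb, by linarith⟩
  · exact ⟨_, add_mem hv hb, by linarith⟩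

theorem greedy (T : H →L[ℂ] H) {a : H →L[ℂ] H} (ha : a ∈ S.M) {A c : ℝ} (hA : 0 < A) (hc0 : 0 < c)
    (h1 : ‖a S.vac‖ ^ 2 ≤ A) (h2 : ‖star a S.vac‖ ^ 2 ≤ A)
    (hc : ∀ᶠ k in ω, c ≤ avg (fun t => ‖T (S.D.wave t (a S.vac))‖ ^ 2) k) :
    ∃ v ∈ S.M, c / 4 ≤ ‖T (v S.vac)‖ ^ 2 - c / (32 * A ^ 2) * ‖(star v * v) S.vac‖ ^ 2 := by
  set β := ‖(star a * a) S.vac‖ ^ 2 with hβ
  obtain ⟨N, hN⟩ := exists_nat_gt (β / (8 * A ^ 2))
  have hN0 : (0 : ℝ) < N := lt_of_le_of_lt (by positivity) hN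
  set l := c / (32 * A ^ 2) / N with hl
  have hl0 : 0 ≤ l := by positivity
  have key : ∀ j : ℕ, j ≤ N → ∃ v ∈ S.M, j * (c / 4) ≤ pot T S.vac l ((N - j) * (4 * A * l)) v := by
    intro j
    induction j with
    | zero => exact fun _ => ⟨0, zero_mem _, by simp [pot]⟩
    | succ j ih =>
      intro hj
      obtain ⟨v, hv, h⟩ := ih (by omega)
      have hj' : ((j + 1 : ℕ) : ℝ) ≤ N := by exact_mod_cast hj
      obtain ⟨v', hv', h'⟩ := time_step S herg ω hω T ha h1 h2 hc (m := (N - (j + 1 : ℕ)) * (4 * A * l))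
        (ε := c / 4) hl0 (mul_nonneg (by linarith) (by positivity)) (by positivity) hv
      refine ⟨v', hv', le_trans ?_ h'⟩
      rw [show (N - (j + 1 : ℕ) : ℝ) * (4 * A * l) + 4 * A * l = (N - j) * (4 * A * l) by
        push_cast; ring]
      have a1 : l * β ≤ c / 4 := by
        rw [div_lt_iff₀ (by positivity)] at hN
        rw [hl, div_div, div_mul_eq_mul_div, div_le_div_iff₀ (by positivity) (by positivity)]
        nlinarith
      have a2 : 2 * A * ((N - (j + 1 : ℕ) : ℝ) * (4 * A * l)) ≤ c / 4 := by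
        calc _ ≤ 2 * A * ((N : ℝ) * (4 * A * l)) := by
              gcongr; linarith [Nat.cast_nonneg (α := ℝ) (j + 1)]
          _ = c / 4 := by rw [hl]; field_simp; ring
      rw [← hβ]
      push_cast at a2 ⊢
      linarith
  obtain ⟨v, hv, h⟩ := key N le_rfl
  rw [sub_self, zero_mul, pot, zero_mul, sub_zero] at h
  set r : ℝ := (Real.sqrt N)⁻¹ with hr
  have hr2 : r ^ 2 = (N : ℝ)⁻¹ := by rw [hr, inv_pow, Real.sq_sqrt hN0.le]
  refine ⟨(r : ℂ) • v, S.M.toStarSubalgebra.smul_mem hv _, ?_⟩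
  have e1 : ‖T (((r : ℂ) • v) S.vac)‖ ^ 2 = (N : ℝ)⁻¹ * ‖T (v S.vac)‖ ^ 2 := by
    rw [smul_apply, map_smul, norm_smul, mul_pow, Complex.norm_real, Real.norm_eq_abs, sq_abs, hr2]
  have e2 : ‖(star ((r : ℂ) • v) * ((r : ℂ) • v)) S.vac‖ ^ 2 =
      (N : ℝ)⁻¹ ^ 2 * ‖(star v * v) S.vac‖ ^ 2 := by
    rw [star_smul, smul_mul_smul_comm, smul_apply, norm_smul, mul_pow, norm_mul, norm_star,
      Complex.norm_real, Real.norm_eq_abs, ← sq, sq_abs, hr2]
  rw [e1, e2]
  have h3 := mul_le_mul_of_nonneg_left h (inv_nonneg.2 hN0.le)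
  rw [← mul_assoc, inv_mul_cancel₀ hN0.ne', one_mul] at h3
  refine h3.trans_eq ?_
  rw [hl]; field_simp

omit herg hω in
theorem truncate (M : VonNeumannAlgebra H) {v : H →L[ℂ] H} (hv : v ∈ M) {R : ℝ} (hR : 0 < R) :
    ∃ w ∈ M, ‖w‖ ≤ R ∧ ∀ x, ‖v x - w x‖ ≤ ‖(star v * v) x‖ / R := by
  have hu : IsUnit (algebraMap ℝ (H →L[ℂ] H) (-R ^ 2) - star v * v) := by
    by_contra h
    have := spectrum_star_mul_self_nonneg (b := v) (-R ^ 2) h
    nlinarith
  set y := star v * v with hy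
  have hyM : y ∈ M := mul_mem (star_mem hv) hv
  have hu' : IsUnit (((R ^ 2 : ℝ) : ℂ) • (1 : H →L[ℂ] H) + y) := by
    convert hu.neg using 1
    rw [Algebra.algebraMap_eq_smul_one, Complex.coe_smul, neg_smul]; abel
  obtain ⟨u, hu⟩ := hu'
  have huM : (u : H →L[ℂ] H) ∈ M := by
    rw [hu]; exact add_mem (M.toStarSubalgebra.smul_mem (one_mem M) _) hyM
  have hiM : (↑u⁻¹ : H →L[ℂ] H) ∈ M := by
    rw [← M.commutant_commutant, VonNeumannAlgebra.mem_commutant_iff]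
    intro z hz
    have : Commute (u : H →L[ℂ] H) z := VonNeumannAlgebra.mem_commutant_iff.1 hz _ huM
    exact this.units_inv_left.eq.symm
  let w : H →L[ℂ] H := ((R ^ 2 : ℝ) : ℂ) • (v * ↑u⁻¹)
  have hw : ‖w‖ ≤ R := by
    refine ContinuousLinearMap.opNorm_le_bound _ hR.le fun x => ?_
    set z := (↑u⁻¹ : H →L[ℂ] H) x with hz
    have h1 : x = ((R ^ 2 : ℝ) : ℂ) • z + y z := by
      have : x = (u : H →L[ℂ] H) z := by
        rw [hz, ← mul_apply_eq_comp, Units.mul_inv, one_apply_eq_self]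
      rw [this, hu]; simp
    have h2 : R ^ 2 * ‖v z‖ ^ 2 ≤ ‖x‖ ^ 2 := by
      have h3 := @norm_add_sq ℂ _ _ _ _ (((R ^ 2 : ℝ) : ℂ) • z) (y z)
      rw [← h1, inner_smul_left, ← inner_conj_symm, hy, inner_star_mul, Complex.conj_ofReal,
        Complex.conj_ofReal, RCLike.re_to_complex, Complex.re_ofReal_mul, Complex.ofReal_re] at h3
      have := sq_nonneg ‖((R ^ 2 : ℝ) : ℂ) • z‖
      have := sq_nonneg ‖(star v * v) z‖
      have := mul_nonneg (sq_nonneg R) (sq_nonneg ‖v z‖)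
      linarith
    have h4 : R * ‖v z‖ ≤ ‖x‖ := by
      rw [← mul_pow] at h2
      exact (pow_le_pow_iff_left₀ (by positivity) (norm_nonneg _) two_ne_zero).1 h2
    rw [show w x = ((R ^ 2 : ℝ) : ℂ) • v z from rfl, norm_smul, Complex.norm_real,
      Real.norm_of_nonneg (sq_nonneg R), sq, mul_assoc]
    gcongr
  refine ⟨w, M.toStarSubalgebra.smul_mem (mul_mem hv hiM) _, hw, fun x => ?_⟩
  have h1 : ((R ^ 2 : ℝ) : ℂ) • (v - w) = w * y := by
    have h2 : v = v * ↑u⁻¹ * (u : H →L[ℂ] H) := by simp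
    have h3 : ((R ^ 2 : ℝ) : ℂ) • v = w * (u : H →L[ℂ] H) := by
      rw [smul_mul_assoc, ← h2]
    rw [smul_sub, h3, hu, mul_add, mul_smul_comm, mul_one, add_sub_cancel_left]
  have h2 := congrArg (fun A : H →L[ℂ] H => ‖A x‖) h1
  simp only [smul_apply, sub_apply, norm_smul, Complex.norm_real, Real.norm_of_nonneg (sq_nonneg R),
    mul_apply_eq_comp] at h2
  have h3 := (w.le_opNorm (y x)).trans (mul_le_mul_of_nonneg_right hw (norm_nonneg _))
  rw [le_div_iff₀ hR]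
  rw [← h2] at h3
  nlinarith [norm_nonneg (v x - w x)]

theorem recover {L : ℝ} (hL : 0 < L) (T : H →L[ℂ] H) {s δ c : ℝ} (hδ1 : δ ≤ 1) (hc0 : 0 < c)
    {k : ℝ → ℂ} {τ : ℝ → ℝ} {ψ : ℝ →ᵇ ℂ} (hk : Integrable k) (hτ : Continuous τ)
    (hkL : ∫ v, ‖k v‖ ≤ L)
    (hψ : ∀ u, ψ u = ∫ v, k v * Complex.exp (Complex.I * ((τ v * u : ℝ) : ℂ))) (hψ1 : ‖ψ‖ ≤ 1)
    (hψ2 : ∀ u ∈ Set.Icc (s - δ) (s + δ), ψ u = 1)
    (hψ3 : ∀ u ∉ Set.Icc (s - 4 * δ) (s + 4 * δ), ψ u = 0)
    {h : H} (hh : ‖h‖ = 1) (hs : S.D.SupportedIn (Set.Icc (s - δ) (s + δ)) h)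
    (hc : c ≤ ultraMean ω fun t : ℝ => ‖T (S.D.wave t h)‖ ^ 2) {B A : ℝ} (hB : ‖T‖ ≤ B) (hB0 : 0 < B)
    (hA : (Real.exp ((s + 1) / 2) + 2) ^ 2 ≤ A) {η : ℝ} (hη : 0 < η) (hη2 : η ^ 2 = c / 128) :
    ∃ v ∈ S.M, ‖v‖ ≤ L * (B ^ 3 * (256 * A ^ 2 / c) / η) ∧ η ≤ ‖T (v S.vac)‖ ∧
      S.D.SupportedIn (Set.Icc (s - 4 * δ) (s + 4 * δ)) (v S.vac) := by
  have hA0 : 0 < A := lt_of_lt_of_le (by positivity) hA
  set ε := min 1 (η / B) with hε
  have hε0 : 0 < ε := by positivity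
  obtain ⟨a, ha, a1, a2⟩ := exists_approx S (r := s + 1) (fun u hu => by linarith [hu.2]) hh hs hε0
  have hε1 : ε ≤ 1 := min_le_left _ _
  have hε2 : B * ε ≤ η := by rw [← le_div_iff₀' hB0]; exact min_le_right _ _
  have he := Real.exp_pos ((s + 1) / 2)
  let T' : H →L[ℂ] H := T * S.D.apply ψ
  have hT' : ∀ x, ‖T' x‖ ≤ B * ‖x‖ := fun x =>
    (T.le_opNorm _).trans (mul_le_mul hB ((norm_apply_apply_le _ _ _).trans
      (mul_le_of_le_one_left (norm_nonneg _) hψ1)) (norm_nonneg _) hB0.le)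
  have hfix : ∀ t, T' (S.D.wave t h) = T (S.D.wave t h) := fun t => by
    have h1 : S.D.apply (ψ - 1) h = 0 := hs _ fun u hu => by simp [hψ2 u hu]
    rw [map_sub, map_one, sub_apply, one_apply_eq_self, sub_eq_zero] at h1
    rw [mul_apply_eq_comp, LineCalculus.wave, apply_comm, h1]
  have c0 : ∀ (U : H →L[ℂ] H) (x : H), Continuous fun t => ‖U (S.D.wave t x)‖ ^ 2 := fun U x =>
    (U.continuous.comp (continuous_wave S.D _)).norm.pow 2
  have hlim : ∀ᶠ j in ω, c / 2 < avg (fun t : ℝ => ‖T (S.D.wave t h)‖ ^ 2) j := by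
    have hb : ∀ j, ‖avg (fun t : ℝ => ‖T (S.D.wave t h)‖ ^ 2) j‖ ≤ ‖T‖ ^ 2 :=
      norm_avg_le (by positivity) fun t => by
        rw [norm_pow, norm_norm]
        gcongr
        exact (T.le_opNorm _).trans (by rw [norm_wave, hh, mul_one])
    obtain ⟨z, -, hz⟩ := (isCompact_closedBall (0 : ℝ) (‖T‖ ^ 2)).ultrafilter_le_nhds
      (ω.map (avg fun t : ℝ => ‖T (S.D.wave t h)‖ ^ 2)) (by
        rw [Ultrafilter.coe_map, le_principal_iff, mem_map]
        exact Eventually.of_forall fun j => by simpa using hb j)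
    have hz' : Tendsto (avg fun t : ℝ => ‖T (S.D.wave t h)‖ ^ 2) ω (𝓝 z) := hz
    rw [ultraMean, show windowMean _ = avg _ from funext (windowMean_eq _), hz'.limUnder_eq] at hc
    exact hz'.eventually (lt_mem_nhds (by linarith))
  obtain ⟨v, hv, h1⟩ := greedy S herg ω hω T' ha (c := c / 8) hA0 (by positivity)
    (le_trans (by
      have := norm_sub_norm_le (a S.vac) h
      gcongr; linarith) hA)
    (le_trans (by gcongr; linarith) hA) (by
      filter_upwards [hlim, hω (eventually_gt_atTop 0)] with j hj hj0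
      have h2 := avg_mono (c0 T h) ((continuous_const.mul (c0 T' (a S.vac))).add continuous_const)
        (g := fun t => 2 * ‖T' (S.D.wave t (a S.vac))‖ ^ 2 + 2 * η ^ 2) (fun t => by
          have h3 := hT' (S.D.wave t (a S.vac - h))
          rw [norm_wave, map_sub, map_sub, hfix] at h3
          have h4 : ‖T' (S.D.wave t (a S.vac)) - T (S.D.wave t h)‖ ≤ η :=
            h3.trans ((mul_le_mul_of_nonneg_left a1 hB0.le).trans hε2)
          have h5 := norm_sub_norm_le (T (S.D.wave t h)) (T' (S.D.wave t (a S.vac)))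
          rw [norm_sub_rev] at h5
          have h6 : ‖T (S.D.wave t h)‖ ^ 2 ≤ (‖T' (S.D.wave t (a S.vac))‖ + η) ^ 2 := by
            gcongr; linarith
          nlinarith [sq_nonneg (‖T' (S.D.wave t (a S.vac))‖ - η)]) j
      rw [avg_add ((c0 T' (a S.vac)).const_mul 2) continuous_const, avg_mul,
        avg_const _ hj0] at h2
      linarith)
  set q := ‖(star v * v) S.vac‖ with hq
  have h2 : ‖v S.vac‖ ^ 2 ≤ q := by
    have h3 := norm_inner_le_norm (𝕜 := ℂ) ((star v * v) S.vac) S.vac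
    rwa [inner_star_mul, S.norm_vac, mul_one, Complex.norm_real,
      Real.norm_of_nonneg (sq_nonneg _)] at h3
  have h3 : ‖T' (v S.vac)‖ ^ 2 ≤ B ^ 2 * q := by
    calc _ ≤ (B * ‖v S.vac‖) ^ 2 := by gcongr; exact hT' _
      _ ≤ _ := by rw [mul_pow]; gcongr
  have hq0 : 0 ≤ q := norm_nonneg _
  have h4 : q ≤ B ^ 2 * (256 * A ^ 2 / c) := by
    rcases hq0.eq_or_lt with h0 | h0
    · rw [← h0]; positivity
    have h5 : c / 8 / (32 * A ^ 2) * q ≤ B ^ 2 := by
      refine le_of_mul_le_mul_right ?_ h0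
      nlinarith
    rw [div_div, div_mul_eq_mul_div, div_le_iff₀ (by positivity)] at h5
    rw [mul_div_assoc', le_div_iff₀ hc0]
    linarith
  have h5 : 2 * η ≤ ‖T' (v S.vac)‖ := by
    refine (pow_le_pow_iff_left₀ (by positivity) (norm_nonneg _) two_ne_zero).1 ?_
    have : 0 ≤ c / 8 / (32 * A ^ 2) * q ^ 2 := by positivity
    rw [mul_pow, hη2]; linarith
  set R := B ^ 3 * (256 * A ^ 2 / c) / η with hR
  have hR0 : 0 < R := by positivity
  obtain ⟨w, hw, w1, w2⟩ := truncate S.M hv hR0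
  have h6 : η ≤ ‖T' (w S.vac)‖ := by
    have h7 := hT' (v S.vac - w S.vac)
    have h8 : B * ‖v S.vac - w S.vac‖ ≤ η := by
      refine (mul_le_mul_of_nonneg_left (w2 _) hB0.le).trans ?_
      rw [mul_div_assoc', div_le_iff₀ hR0, hR, mul_div_cancel₀ _ hη.ne']
      calc B * q ≤ B * (B ^ 2 * (256 * A ^ 2 / c)) := by gcongr
        _ = _ := by ring
    rw [map_sub] at h7
    have := norm_sub_norm_le (T' (v S.vac)) (T' (w S.vac))
    linarith
  have hb : ∀ x t, ‖(k t • S.flow (τ t) w) x‖ ≤ ‖k t‖ * (R * ‖x‖) := fun x t => by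
    rw [smul_apply, norm_smul]
    gcongr
    exact (norm_flow_le S _ _ _).trans (by gcongr)
  obtain ⟨G, hG, g1, g2⟩ := exists_sInt volume (fun t => k t • S.flow (τ t) w) (L * R) (by positivity)
    (fun x => (hk.norm.mul_const (R * ‖x‖)).mono'
      (hk.1.smul ((continuous_flow S w x).comp hτ).aestronglyMeasurable) (ae_of_all _ (hb x)))
    (fun x => (norm_integral_le_of_norm_le (hk.norm.mul_const (R * ‖x‖)) (ae_of_all _ (hb x))).trans
      (by rw [integral_mul_const, mul_assoc]; gcongr))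
    S.M fun t => S.M.toStarSubalgebra.smul_mem (S.flow_mem _ w hw) _
  have g3 : G S.vac = S.D.apply ψ (w S.vac) := by
    rw [g2, ← integral_wave S.D hk hτ ψ hψ]
    simp only [smul_apply, flow_vac]
  refine ⟨G, hG, g1, by rw [g3]; exact h6, fun f hf => ?_⟩
  have : f * ψ = 0 := by
    ext u
    by_cases hu : u ∈ Set.Icc (s - 4 * δ) (s + 4 * δ)
    · simp [hf u hu]
    · simp [hψ3 u hu]
  rw [g3, ← apply_mul, this, map_zero]; rfl

end Crest.Agent.H0112
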