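import Crest.Agent.H0112.Calc

/-! Modular data: the vacuum is fixed, approximation, the ergodic mean. -/

set_option autoImplicit false

namespace Crest.Agent.H0112

open Crest.OpAlg Filter MeasureTheory Topology
open scoped BoundedContinuousFunction InnerProductSpace

variable {H : Type*} [NormedAddCommGroup H] [InnerProductSpace ℂ H] [CompleteSpace H]

/-- a compactly supported function times a continuous function -/
noncomputable def cmul (f : ℝ →ᵇ ℂ) (hf : HasCompactSupport (f : ℝ → ℂ)) (e : ℝ → ℂ)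
    (he : Continuous e) : ℝ →ᵇ ℂ :=
  ofCompactSupport (fun u => f u * e u) (f.continuous.mul he) hf.mul_right

@[simp] theorem cmul_apply (f : ℝ →ᵇ ℂ) (hf : HasCompactSupport (f : ℝ → ℂ)) (e : ℝ → ℂ)
    (he : Continuous e) (u : ℝ) : cmul f hf e he u = f u * e u := rfl

theorem cmul_supp (f : ℝ →ᵇ ℂ) (hf : HasCompactSupport (f : ℝ → ℂ)) (e : ℝ → ℂ)
    (he : Continuous e) : HasCompactSupport (cmul f hf e he : ℝ → ℂ) := hf.mul_right

variable (S : ModularDatum H)

theorem inner_J (x y : H) : ⟪S.J x, y⟫_ℂ = ⟪S.J y, x⟫_ℂ := by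
  have h : ∀ a b : H, ⟪S.J a, S.J b⟫_ℂ = ⟪b, a⟫_ℂ := by
    intro a b
    rw [inner_eq_sum_norm_sq_div_four, inner_eq_sum_norm_sq_div_four]
    have e1 : S.J a + S.J b = S.J (b + a) := by rw [map_add, add_comm]
    have e2 : ‖S.J a - S.J b‖ = ‖b - a‖ := by rw [← map_sub, S.J.norm_map, norm_sub_rev]
    have e3 : ‖S.J a - (RCLike.I : ℂ) • S.J b‖ = ‖b - (RCLike.I : ℂ) • a‖ := by
      have : S.J a - (RCLike.I : ℂ) • S.J b = S.J ((RCLike.I : ℂ) • (b - (RCLike.I : ℂ) • a)) := by
        simp [smul_sub, smul_smul, LinearIsometryEquiv.map_smulₛₗ]; abel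
      rw [this, S.J.norm_map, norm_smul]; simp
    have e4 : ‖S.J a + (RCLike.I : ℂ) • S.J b‖ = ‖b + (RCLike.I : ℂ) • a‖ := by
      have : S.J a + (RCLike.I : ℂ) • S.J b = S.J (-(RCLike.I : ℂ) • (b + (RCLike.I : ℂ) • a)) := by
        simp [smul_add, smul_smul, map_add, LinearIsometryEquiv.map_smulₛₗ]; abel
      rw [this, S.J.norm_map, norm_smul]; simp
    rw [e1, e2, e3, e4, S.J.norm_map]
  rw [← h x (S.J y), S.J_J]

theorem wave_vac (t : ℝ) : S.D.wave t S.vac = S.vac := by
  have he : Continuous fun u : ℝ => ((Real.exp (u / 2) : ℝ) : ℂ) := by fun_prop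
  have h1 : S.D.HalfExp S.vac (S.J S.vac) := by
    have : (S.vac, S.vac) ∈ closure (Set.range fun a : S.M =>
        ((a : H →L[ℂ] H) S.vac, star (a : H →L[ℂ] H) S.vac)) :=
      subset_closure ⟨1, by simp⟩
    rw [S.tomita] at this
    exact this
  have h2 : ∀ p ∈ closure (Set.range fun a : S.M =>
      ((a : H →L[ℂ] H) S.vac, star (a : H →L[ℂ] H) S.vac)), ⟪p.2, S.vac⟫_ℂ = ⟪S.vac, p.1⟫_ℂ := by
    refine closure_minimal ?_ (isClosed_eq (by fun_prop) (by fun_prop))
    rintro _ ⟨a, rfl⟩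
    exact ContinuousLinearMap.adjoint_inner_left _ _ _
  have h3 : ∀ (f : ℝ →ᵇ ℂ) (hf : HasCompactSupport (f : ℝ → ℂ)),
      S.D.apply (cmul f hf _ he) (S.J S.vac) = S.D.apply f S.vac := by
    intro f hf
    have hf' : HasCompactSupport (star f : ℝ →ᵇ ℂ) :=
      hf.comp_left (g := fun z : ℂ => star z) (star_zero _)
    refine ext_inner_right ℂ fun z => ?_
    have h4 := h2 (S.D.apply (star f) z, S.J (S.D.apply (cmul (star f) hf' _ he) z)) (by
      rw [S.tomita]
      intro f' g' hg'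
      simp only [S.J_J]
      rw [← apply_mul, ← apply_mul]
      congr 2
      ext u
      simp only [BoundedContinuousFunction.mul_apply, cmul_apply, hg']; ring)
    simp only at h4
    have e : cmul (star f) hf' _ he = star (cmul f hf _ he) := by
      ext u; simp [-Complex.ofReal_exp]
    rw [inner_J, e, map_star, map_star, ContinuousLinearMap.star_eq_adjoint,
      ContinuousLinearMap.star_eq_adjoint, ContinuousLinearMap.adjoint_inner_right,
      ContinuousLinearMap.adjoint_inner_right] at h4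
    exact h4
  have h5 : ∀ (f : ℝ →ᵇ ℂ) (hf : HasCompactSupport (f : ℝ → ℂ)),
      S.D.apply (cmul (cmul f hf _ he) (cmul_supp _ _ _ _) _ he - f) S.vac = 0 := by
    intro f hf
    rw [map_sub, sub_apply, ← h3 f hf,
      h1 (cmul f hf _ he) (cmul (cmul f hf _ he) (cmul_supp _ _ _ _) _ he) fun u => rfl, sub_self]
  -- divide
  let χ : ℝ → ℂ := fun u => Complex.exp (Complex.I * ((t * u : ℝ) : ℂ))
  let E : ℝ → ℝ := dslope Real.exp 0
  have hχ : Continuous (dslope χ 0) := by
    rw [← continuousOn_univ, continuousOn_dslope univ_mem]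
    exact ⟨by fun_prop, by fun_prop⟩
  have hE : Continuous E := by
    rw [← continuousOn_univ, continuousOn_dslope univ_mem]
    exact ⟨by fun_prop, by fun_prop⟩
  have hE1 : ∀ u, u * E u = Real.exp u - 1 := fun u => by
    simpa using sub_smul_dslope Real.exp 0 u
  have hχ1 : ∀ u : ℝ, (u : ℂ) * dslope χ 0 u = χ u - 1 := fun u => by
    simpa [χ] using sub_smul_dslope χ 0 u
  have hE0 : ∀ u, E u ≠ 0 := fun u h => by
    by_cases hu : u = 0
    · subst hu; simp [E] at h
    · have := hE1 u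
      rw [h, mul_zero, eq_comm, sub_eq_zero, Real.exp_eq_one_iff] at this
      exact hu this
  have hq : Continuous fun u => dslope χ 0 u / ((E u : ℝ) : ℂ) :=
    hχ.div (by fun_prop) fun u => by exact_mod_cast hE0 u
  have h6 : ∀ (f : ℝ →ᵇ ℂ), HasCompactSupport (f : ℝ → ℂ) →
      S.D.apply f (S.D.wave t S.vac - S.vac) = 0 := by
    intro f hf
    rw [← h5 (cmul f hf _ hq) (cmul_supp _ _ _ _), map_sub, LineCalculus.wave, ← apply_mul,
      ← sub_apply, ← map_sub]
    congr 2
    ext u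
    have a1 : ((Real.exp (u / 2) : ℝ) : ℂ) * ((Real.exp (u / 2) : ℝ) : ℂ) = u * E u + 1 := by
      rw [← Complex.ofReal_mul, ← Real.exp_add, add_halves]
      exact_mod_cast (by rw [hE1]; ring : Real.exp u = u * E u + 1)
    have a2 : ((E u : ℝ) : ℂ) ≠ 0 := by exact_mod_cast hE0 u
    simp only [BoundedContinuousFunction.coe_sub, Pi.sub_apply, BoundedContinuousFunction.mul_apply,
      cmul_apply, character_apply]
    rw [mul_assoc (f u * _), a1]
    have a3 : Complex.exp (Complex.I * ((t * u : ℝ) : ℂ)) = u * dslope χ 0 u + 1 := by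
      rw [hχ1]; simp [χ]
    rw [a3]; field_simp; ring
  rw [← sub_eq_zero, ← norm_le_zero_iff]
  refine le_of_forall_pos_le_add fun ε hε => ?_
  obtain ⟨f, hf, h⟩ := S.D.window (S.D.wave t S.vac - S.vac) ε hε
  rw [h6 f hf, zero_sub, norm_neg] at h
  linarith

theorem exists_approx {r : ℝ} {K : Set ℝ} (hK : ∀ u ∈ K, u ≤ r) {h : H} (hh : ‖h‖ = 1)
    (hs : S.D.SupportedIn K h) {ε : ℝ} (hε : 0 < ε) :
    ∃ a ∈ S.M, ‖a S.vac - h‖ ≤ ε ∧ ‖star a S.vac‖ ≤ Real.exp (r / 2) + ε := by
  let g : ℝ →ᵇ ℂ := BoundedContinuousFunction.ofNormedAddCommGroup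
    (fun u => ((Real.exp (min u r / 2) : ℝ) : ℂ)) (by fun_prop) (Real.exp (r / 2)) fun u => by
      rw [Complex.norm_real, Real.norm_of_nonneg (Real.exp_pos _).le]
      exact Real.exp_le_exp.2 (by linarith [min_le_right u r])
  have hg : ‖g‖ ≤ Real.exp (r / 2) :=
    BoundedContinuousFunction.norm_ofNormedAddCommGroup_le _ (Real.exp_pos _).le _
  have h1 : (h, S.J (S.D.apply g h)) ∈ closure (Set.range fun a : S.M =>
      ((a : H →L[ℂ] H) S.vac, star (a : H →L[ℂ] H) S.vac)) := by
    rw [S.tomita]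
    intro f' g' hg'
    simp only [S.J_J]
    rw [← apply_mul, ← sub_eq_zero, ← sub_apply, ← map_sub]
    refine hs _ fun u hu => ?_
    simp only [BoundedContinuousFunction.coe_sub, Pi.sub_apply, BoundedContinuousFunction.mul_apply,
      hg', g, BoundedContinuousFunction.coe_ofNormedAddCommGroup, min_eq_left (hK u hu), sub_self]
  obtain ⟨_, ⟨a, rfl⟩, h2⟩ := Metric.mem_closure_iff.1 h1 ε hε
  rw [Prod.dist_eq, max_lt_iff, dist_comm, dist_eq_norm, dist_comm, dist_eq_norm] at h2
  refine ⟨a, a.2, h2.1.le, ?_⟩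
  have h3 : ‖S.J (S.D.apply g h)‖ ≤ Real.exp (r / 2) := by
    rw [S.J.norm_map]
    exact (norm_apply_apply_le _ _ _).trans (by rw [hh, mul_one]; exact hg)
  have := norm_sub_norm_le (star (a : H →L[ℂ] H) S.vac) (S.J (S.D.apply g h))
  simp only at h2
  linarith [h2.2]

theorem flow_apply (t : ℝ) (a : H →L[ℂ] H) (x : H) :
    S.flow t a x = S.D.wave t (a (S.D.wave (-t) x)) := rfl

theorem flow_vac (t : ℝ) (a : H →L[ℂ] H) : S.flow t a S.vac = S.D.wave t (a S.vac) := by
  rw [flow_apply, wave_vac]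

theorem flow_mul (t : ℝ) (a b : H →L[ℂ] H) : S.flow t (a * b) = S.flow t a * S.flow t b := by
  ext x
  simp only [flow_apply, mul_apply_eq_comp, wave_wave, neg_add_cancel, wave_zero]
  rfl

theorem star_flow (t : ℝ) (a : H →L[ℂ] H) : star (S.flow t a) = S.flow t (star a) := by
  simp only [ModularDatum.flow, star_mul, star_wave, neg_neg, mul_assoc]

theorem flow_flow (s t : ℝ) (a : H →L[ℂ] H) : S.flow s (S.flow t a) = S.flow (t + s) a := by
  ext x
  simp only [flow_apply, wave_wave]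
  rw [add_comm s t, neg_add]

theorem norm_flow_le (t : ℝ) (a : H →L[ℂ] H) (x : H) : ‖S.flow t a x‖ ≤ ‖a‖ * ‖x‖ := by
  rw [flow_apply, norm_wave]
  exact (a.le_opNorm _).trans (by rw [norm_wave])

theorem continuous_wave₂ (D : LineCalculus H) {τ : ℝ → ℝ} {x : ℝ → H} (hτ : Continuous τ)
    (hx : Continuous x) : Continuous fun t => D.wave (τ t) (x t) := by
  rw [continuous_iff_continuousAt]
  intro t0
  have h1 : Tendsto (fun t => D.wave (τ t) (x t0)) (𝓝 t0) (𝓝 (D.wave (τ t0) (x t0))) :=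
    ((continuous_wave D (x t0)).comp hτ).continuousAt
  have h2 : Tendsto (fun t => D.wave (τ t) (x t) - D.wave (τ t) (x t0)) (𝓝 t0) (𝓝 0) := by
    rw [tendsto_zero_iff_norm_tendsto_zero]
    simp_rw [← map_sub, norm_wave]
    exact tendsto_iff_norm_sub_tendsto_zero.1 hx.continuousAt
  simpa [ContinuousAt] using h2.add h1

theorem continuous_flow (a : H →L[ℂ] H) (x : H) : Continuous fun t => S.flow t a x :=
  continuous_wave₂ S.D continuous_id
    (a.continuous.comp ((continuous_wave S.D x).comp continuous_neg))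

/-- window average -/
noncomputable def avg {E : Type*} [NormedAddCommGroup E] [NormedSpace ℝ E] (f : ℝ → E) (k : ℕ) : E :=
  (2 * (k : ℝ))⁻¹ • ∫ t in (-(k : ℝ))..k, f t

theorem windowMean_eq (f : ℝ → ℝ) (k : ℕ) : windowMean f k = avg f k := by
  rw [windowMean, avg, setAverage_eq, integral_Icc_eq_integral_Ioc,
    intervalIntegral.integral_of_le (by linarith [Nat.cast_nonneg (α := ℝ) k]),
    Real.volume_real_Icc_of_le (by linarith [Nat.cast_nonneg (α := ℝ) k])]
  congr 2; ring

theorem norm_avg_le {E : Type*} [NormedAddCommGroup E] [NormedSpace ℝ E] {f : ℝ → E} {C : ℝ}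
    (hC : 0 ≤ C) (h : ∀ t, ‖f t‖ ≤ C) (k : ℕ) : ‖avg f k‖ ≤ C := by
  rcases Nat.eq_zero_or_pos k with rfl | hk
  · simpa [avg] using hC
  have hk' : (0 : ℝ) < k := by exact_mod_cast hk
  have := intervalIntegral.norm_integral_le_of_norm_le_const (a := -(k : ℝ)) (b := k) (f := f)
    fun t _ => h t
  rw [avg, norm_smul, Real.norm_of_nonneg (by positivity), inv_mul_le_iff₀ (by positivity)]
  rw [abs_of_pos (by linarith)] at this
  linarith

theorem avg_neg {E : Type*} [NormedAddCommGroup E] [NormedSpace ℝ E] (f : ℝ → E) (k : ℕ) :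
    avg (fun t => f (-t)) k = avg f k := by
  simp [avg, intervalIntegral.integral_comp_neg]

theorem avg_clm {E F : Type*} [NormedAddCommGroup E] [NormedSpace ℝ E] [CompleteSpace E]
    [NormedAddCommGroup F] [NormedSpace ℝ F] [CompleteSpace F] (L : E →L[ℝ] F) {f : ℝ → E}
    (hf : Continuous f) (k : ℕ) : avg (fun t => L (f t)) k = L (avg f k) := by
  rw [avg, avg, L.intervalIntegral_comp_comm (hf.intervalIntegrable _ _), map_smul]

theorem avg_shift {E : Type*} [NormedAddCommGroup E] [NormedSpace ℝ E] {f : ℝ → E} {C : ℝ}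
    (hf : Continuous f) (h : ∀ t, ‖f t‖ ≤ C) (s : ℝ) :
    Tendsto (fun k => avg (fun t => f (t + s)) k - avg f k) atTop (𝓝 0) := by
  have hb : ∀ a : ℝ, ‖∫ t in a..a + s, f t‖ ≤ C * |s| := fun a => by
    simpa using intervalIntegral.norm_integral_le_of_norm_le_const (a := a) (b := a + s) (f := f)
      fun t _ => h t
  refine squeeze_zero_norm (a := fun k : ℕ => (C * |s|) / k) (fun k => ?_)
    (tendsto_const_div_atTop_nhds_zero_nat _)
  have e : (∫ t in -(k : ℝ) + s..k + s, f t) - ∫ t in -(k : ℝ)..k, f t =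
      (∫ t in (k : ℝ)..k + s, f t) - ∫ t in -(k : ℝ)..-(k : ℝ) + s, f t := by
    rw [← intervalIntegral.integral_add_adjacent_intervals (a := -(k : ℝ) + s) (b := k)
      (hf.intervalIntegrable _ _) (hf.intervalIntegrable _ _),
      ← intervalIntegral.integral_add_adjacent_intervals (a := -(k : ℝ)) (b := -(k : ℝ) + s) (c := k)
      (hf.intervalIntegrable _ _) (hf.intervalIntegrable _ _)]
    abel
  rw [avg, avg, ← smul_sub, intervalIntegral.integral_comp_add_right, e, norm_smul,
    Real.norm_of_nonneg (by positivity)]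
  have := norm_sub_le (∫ t in (k : ℝ)..k + s, f t) (∫ t in -(k : ℝ)..-(k : ℝ) + s, f t)
  have h1 := hb k
  have h2 := hb (-k)
  calc _ ≤ (2 * (k : ℝ))⁻¹ * (2 * (C * |s|)) := by gcongr; linarith
    _ = _ := by rw [mul_inv]; ring

theorem weak_lim (ω : Ultrafilter ℕ) (v : ℕ → H) (C : ℝ) (h : ∀ k, ‖v k‖ ≤ C) :
    ∃ e : H, ‖e‖ ≤ C ∧ ∀ x, Tendsto (fun k => ⟪v k, x⟫_ℂ) ω (𝓝 ⟪e, x⟫_ℂ) := by
  let w : ℕ → WeakDual ℂ H := fun k => StrongDual.toWeakDual (InnerProductSpace.toDual ℂ H (v k))
  obtain ⟨φ, hφ, h1⟩ := (WeakDual.isCompact_closedBall (𝕜 := ℂ) (0 : StrongDual ℂ H) C).ultrafilter_le_nhds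
    (ω.map w) (by
      rw [Ultrafilter.coe_map, le_principal_iff, mem_map]
      exact Eventually.of_forall fun k => by simpa [w] using h k)
  refine ⟨(InnerProductSpace.toDual ℂ H).symm (WeakDual.toStrongDual φ), by simpa using hφ,
    fun x => ?_⟩
  have := ((WeakDual.eval_continuous x).tendsto φ).comp (show Tendsto w ω (𝓝 φ) from h1)
  rw [InnerProductSpace.toDual_symm_apply]
  exact this

theorem ergodic_mean (herg : S.Ergodic) (ω : Ultrafilter ℕ) (hω : (ω : Filter ℕ) ≤ atTop)
    {b : H →L[ℂ] H} (hb : b ∈ S.M) (x y : H) :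
    Tendsto (avg fun t => ⟪S.flow t b x, y⟫_ℂ) ω (𝓝 (⟪b S.vac, S.vac⟫_ℂ * ⟪x, y⟫_ℂ)) := by
  have hav : ∀ x y k, avg (fun t => ⟪S.flow t b x, y⟫_ℂ) k = ⟪avg (fun t => S.flow t b x) k, y⟫_ℂ := by
    intro x y k
    have := avg_clm (Complex.conjCLE.toContinuousLinearMap.comp
      ((innerSL ℂ y).restrictScalars ℝ)) (continuous_flow S b x) k
    simpa using this
  choose e he1 he2 using fun x => weak_lim ω (avg fun t => S.flow t b x) (‖b‖ * ‖x‖)
    (norm_avg_le (by positivity) fun t => norm_flow_le S t b x)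
  have he3 : ∀ x y, Tendsto (avg fun t => ⟪S.flow t b x, y⟫_ℂ) ω (𝓝 ⟪e x, y⟫_ℂ) := fun x y =>
    (he2 x y).congr fun k => (hav x y k).symm
  have hc : ∀ x y, Continuous fun t => ⟪S.flow t b x, y⟫_ℂ := fun x y =>
    (continuous_flow S b x).inner continuous_const
  let E : H →L[ℂ] H := LinearMap.mkContinuous
    { toFun := e
      map_add' := fun x x' => ext_inner_right ℂ fun y => by
        rw [inner_add_left]
        refine tendsto_nhds_unique (he3 _ y) (((he3 x y).add (he3 x' y)).congr fun k => ?_)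
        simp only [avg, map_add, inner_add_left]
        rw [intervalIntegral.integral_add ((hc _ _).intervalIntegrable _ _)
          ((hc _ _).intervalIntegrable _ _), smul_add]
      map_smul' := fun c x => ext_inner_right ℂ fun y => by
        rw [RingHom.id_apply, inner_smul_left]
        refine tendsto_nhds_unique (he3 _ y) (((he3 x y).const_mul _).congr fun k => ?_)
        simp only [avg, map_smul, inner_smul_left]
        rw [intervalIntegral.integral_const_mul, mul_smul_comm] } ‖b‖ he1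
  have hE : ∀ x, E x = e x := fun _ => rfl
  have hEM : E ∈ S.M := by
    rw [← S.M.commutant_commutant, VonNeumannAlgebra.mem_commutant_iff]
    intro z hz
    ext x
    refine ext_inner_right ℂ fun y => ?_
    rw [mul_apply_eq_comp, mul_apply_eq_comp, hE, hE, ← ContinuousLinearMap.adjoint_inner_right]
    refine tendsto_nhds_unique (he3 _ _) ((he3 _ _).congr fun k => ?_)
    congr 1
    ext t
    rw [ContinuousLinearMap.adjoint_inner_right]
    congr 1
    exact congrArg (fun A : H →L[ℂ] H => A x)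
      (VonNeumannAlgebra.mem_commutant_iff.1 hz _ (S.flow_mem t b hb))
  obtain ⟨c, hc'⟩ := herg E hEM fun s => by
    ext x
    refine ext_inner_right ℂ fun y => ?_
    rw [flow_apply, inner_wave, hE, hE]
    have h1 := (avg_shift (hc x y) (C := ‖b‖ * ‖x‖ * ‖y‖) (fun t => (norm_inner_le_norm _ _).trans
      (mul_le_mul_of_nonneg_right (norm_flow_le S t b x) (norm_nonneg _))) s).mono_left hω
    have h2 := h1.add (he3 x y)
    simp only [sub_add_cancel, zero_add] at h2
    refine tendsto_nhds_unique (he3 _ _) (h2.congr fun k => ?_)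
    congr 1
    ext t
    rw [← flow_flow, flow_apply S s, inner_wave]
  have h3 : ⟪e S.vac, S.vac⟫_ℂ = ⟪b S.vac, S.vac⟫_ℂ := by
    refine tendsto_nhds_unique (he3 _ _) (tendsto_const_nhds.congr' ?_)
    filter_upwards [hω (eventually_gt_atTop 0)] with k hk
    have hk' : (k : ℝ) ≠ 0 := by exact_mod_cast hk.ne'
    simp only [avg, flow_vac, inner_wave, wave_vac, intervalIntegral.integral_const, smul_smul]
    rw [show (2 * (k : ℝ))⁻¹ * (k - -k) = 1 by field_simp; ring, one_smul]
  have h4 := he3 x y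
  rw [← hE, hc'] at h3 h4
  simp only [smul_apply, one_apply_eq_self, inner_smul_left,
    inner_self_eq_norm_sq_to_K, S.norm_vac] at h3 h4
  rw [← h3]
  simpa using h4

end Crest.Agent.H0112
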